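import Vale.Agent.P181.MR.Defs
import Vale.Agent.P181.SZR5.Minor

set_option autoImplicit false

/-!
# P181, MR, [DES]: the design polynomial
-/

open MvPolynomial

namespace Vale.Agent.P181.MR.H984

open Vale.Agent.P181.T4 (HW)
open Vale.Agent.P181.TL (KK)
open Vale.Agent.P181.SZR5

/-- The value of a minor on the moment curve. -/
lemma eval_minor {m r : ℕ} {τ : Type} (hr : r < m) (f : τ → ℂ) (c : Fin (r + 1) → τ) :
    eval (fun p : Fin m × τ => f p.2 ^ (p.1 : ℕ)) (minor hr c) =
      (Matrix.vandermonde (fun b => f (c b))).det := by
  rw [minor, RingHom.map_det, ← Matrix.det_transpose (Matrix.vandermonde _)]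
  congr 1
  ext a b
  simp [Matrix.vandermonde, rw']

section

variable (r M h B : ℕ)

/-- The columns of a minor: the main letter and a chunk of frames. -/
def cl (zu : (Fin h × Fin B × Fin (r * M + 1)) × Fin M) :
    Fin (r + 1) → Lt h B (r * M + 1) :=
  Fin.cons (Sum.inl zu.1)
    (fun i => Sum.inr (zu.1.1, zu.1.2.2.succAbove (finProdFinEquiv (i, zu.2))))

/-- The design polynomial. -/
noncomputable def PD {m : ℕ} (hr : r < m) :
    MvPolynomial (Fin m × Lt h B (r * M + 1)) ℂ :=
  ∏ zu : (Fin h × Fin B × Fin (r * M + 1)) × Fin M, minor hr (cl r M h B zu)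

/-- The label of a letter. -/
def lab : Lt h B (r * M + 1) → ℂ :=
  Sum.elim (fun z => ((z.2.2 : ℕ) : ℂ)) (fun y => ((y.2 : ℕ) : ℂ))

lemma PD_HW {m : ℕ} (hr : r < m) : PD r M h B hr ∈
    HW m (Lt h B (r * M + 1)) (fun i => if (i : ℕ) < r + 1 then h * B * (r * M + 1) * M else 0) := by
  have h1 := HW_prod (n := m) (σ := Lt h B (r * M + 1)) Finset.univ
    (fun _ : (Fin h × Fin B × Fin (r * M + 1)) × Fin M => (fun i : Fin m => if (i : ℕ) ≤ r then 1 else 0))
    (fun zu => minor hr (cl r M h B zu)) (fun zu _ => minor_HW hr (cl r M h B zu))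
  have hw : (fun i : Fin m => if (i : ℕ) < r + 1 then h * B * (r * M + 1) * M else 0) =
      ∑ _zu : (Fin h × Fin B × Fin (r * M + 1)) × Fin M,
        (fun i : Fin m => if (i : ℕ) ≤ r then 1 else 0) := by
    funext i
    rw [Finset.sum_apply, Finset.sum_const, Finset.card_univ]
    simp only [Fintype.card_prod, Fintype.card_fin, smul_eq_mul, mul_ite, mul_one, mul_zero,
      Nat.lt_succ_iff]
    split_ifs
    · ring
    · rfl
  rw [hw]
  exact h1

lemma PD_col {m : ℕ} (hr : r < m) :
    Col m (Lt h B (r * M + 1)) (PD r M h B hr) (rr M h B (r * M + 1)) := by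
  classical
  have h1 := Col.prod (n := m) (σ := Lt h B (r * M + 1)) Finset.univ
    (fun (zu : (Fin h × Fin B × Fin (r * M + 1)) × Fin M) _ => minor_col hr (cl r M h B zu))
  have h2 : (∑ zu : (Fin h × Fin B × Fin (r * M + 1)) × Fin M,
      (∑ b, Pi.single (cl r M h B zu b) 1 : Lt h B (r * M + 1) → ℕ)) =
      rr M h B (r * M + 1) := by
    funext j
    simp only [Finset.sum_apply, Fin.sum_univ_succ, Pi.add_apply, cl, Fin.cons_zero,
      Fin.cons_succ]
    rcases j with z | ⟨g, q⟩
    · simp only [rr, Sum.elim_inl, Pi.single_apply, Sum.inl.injEq, reduceCtorEq, if_false,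
        Finset.sum_const_zero, add_zero]
      calc _ = ∑ x : (Fin h × Fin B × Fin (r * M + 1)) × Fin M, (if z = x.1 then 1 else 0) * 1 :=
            Finset.sum_congr rfl fun x _ => by
              by_cases h4 : z = x.1
              · rw [if_pos h4]
              · rw [if_neg h4, zero_mul]
        _ = M := by
          rw [← Finset.univ_product_univ, Finset.sum_product' (f := fun (x : Fin h × Fin B × Fin (r * M + 1)) (_ : Fin M) => (if z = x then 1 else 0) * 1)]
          simp only [mul_one, Finset.sum_const, Finset.card_univ, Fintype.card_fin, smul_eq_mul,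
            mul_ite, mul_zero, Finset.sum_ite_eq, Finset.mem_univ, if_true]
    · simp only [rr, Sum.elim_inr, Pi.single_apply, Sum.inr.injEq, Prod.mk.injEq, reduceCtorEq,
        if_false, zero_add]
      rw [Fintype.sum_prod_type, Fintype.sum_prod_type]
      have h3 : ∀ x : Fin h, (∑ y : Fin B × Fin (r * M + 1), ∑ u : Fin M, ∑ i : Fin r,
          (if g = x ∧ q = y.2.succAbove (finProdFinEquiv (i, u)) then 1 else 0)) =
          if g = x then B * (r * M + 1 - 1) else 0 := by
        intro x
        by_cases hx : g = x
        · simp only [hx, true_and, if_true]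
          rw [Fintype.sum_prod_type]
          have h4 : ∀ p : Fin (r * M + 1), (∑ u : Fin M, ∑ i : Fin r,
              (if q = p.succAbove (finProdFinEquiv (i, u)) then 1 else 0)) =
              if q = p then 0 else 1 := by
            intro p
            rw [Finset.sum_comm, ← Fintype.sum_prod_type' (f := fun (i : Fin r) (u : Fin M) =>
              if q = p.succAbove (finProdFinEquiv (i, u)) then 1 else 0)]
            rw [Equiv.sum_comp finProdFinEquiv
              (fun y : Fin (r * M) => if q = p.succAbove y then 1 else 0)]
            by_cases hq : q = p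
            · rw [if_pos hq]
              refine Finset.sum_eq_zero fun y _ => ?_
              rw [if_neg]
              intro h5
              exact Fin.succAbove_ne p y (h5.symm.trans hq)
            · rw [if_neg hq]
              obtain ⟨y, hy⟩ := Fin.exists_succAbove_eq hq
              rw [Finset.sum_eq_single y]
              · rw [if_pos hy.symm]
              · intro y' _ hy'
                rw [if_neg]
                intro h5
                apply hy'
                exact Fin.succAbove_right_injective (h5.symm.trans hy.symm)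
              · intro h5
                exact absurd (Finset.mem_univ _) h5
          simp only [h4]
          rw [Finset.sum_const, Finset.card_univ, Fintype.card_fin, smul_eq_mul]
          congr 1
          have h6 : (∑ p : Fin (r * M + 1), if q = p then 0 else 1) +
              ∑ p : Fin (r * M + 1), (if q = p then 1 else 0) = r * M + 1 := by
            rw [← Finset.sum_add_distrib]
            have h7 : ∀ p : Fin (r * M + 1), ((if q = p then 0 else 1) +
                (if q = p then 1 else 0) : ℕ) = 1 := by
              intro p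
              split_ifs <;> rfl
            simp only [h7]
            simp
          rw [Finset.sum_ite_eq, if_pos (Finset.mem_univ _)] at h6
          omega
        · simp only [hx, false_and, if_false]
          simp
      simp only [h3]
      simp
  rw [h2] at h1
  exact h1

lemma lab_inj (zu : (Fin h × Fin B × Fin (r * M + 1)) × Fin M) :
    Function.Injective (fun b => lab r M h B (cl r M h B zu b)) := by
  intro a b hab
  simp only [cl] at hab
  induction a using Fin.cases with
  | zero =>
    induction b using Fin.cases with
    | zero => rfl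
    | succ b =>
      exfalso
      simp only [Fin.cons_zero, Fin.cons_succ, lab, Sum.elim_inl, Sum.elim_inr,
        Nat.cast_inj] at hab
      exact Fin.succAbove_ne _ _ (Fin.ext hab).symm
  | succ a =>
    induction b using Fin.cases with
    | zero =>
      exfalso
      simp only [Fin.cons_zero, Fin.cons_succ, lab, Sum.elim_inl, Sum.elim_inr,
        Nat.cast_inj] at hab
      exact Fin.succAbove_ne _ _ (Fin.ext hab)
    | succ b =>
      simp only [Fin.cons_succ, lab, Sum.elim_inr, Nat.cast_inj] at hab
      have h1 := Fin.succAbove_right_injective (Fin.ext hab)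
      have h2 := finProdFinEquiv.injective h1
      rw [(Prod.mk.inj h2).1]

end

/-- **[DES]** -/
theorem des : DesM := by
  intro m R M h B ν hR2 hRm hν
  obtain ⟨r, rfl⟩ : ∃ r, R = r + 1 := ⟨R - 1, by omega⟩
  rw [Nat.add_sub_cancel] at hν
  subst hν
  have hr : r < m := hRm
  refine ⟨PD r M h B hr, fun p => lab r M h B p.2 ^ (p.1 : ℕ), ⟨PD_HW r M h B hr, PD_col r M h B hr⟩,
    ?_, ?_⟩
  · rw [PD, map_prod, Finset.prod_ne_zero_iff]
    intro zu _
    rw [eval_minor]
    exact Matrix.det_vandermonde_ne_zero_iff.2 (lab_inj r M h B zu)
  · intro e he1 he2 hne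
    have h1 : ∃ z, e (Sum.inl z) ≠ Sum.inl z := by
      by_contra hcon
      push Not at hcon
      apply hne
      ext j
      rcases j with z | y
      · rw [hcon z]; rfl
      · rw [he1 y]; rfl
    obtain ⟨z, hz⟩ := h1
    obtain ⟨p, hp⟩ := he2 z
    have hpz : p ≠ z.2.2 := by
      intro h2
      apply hz
      rw [hp, h2]
    obtain ⟨y, hy⟩ := Fin.exists_succAbove_eq hpz
    rw [PD, map_prod]
    apply Finset.prod_eq_zero (Finset.mem_univ (z, (finProdFinEquiv.symm y).2))
    have h3 := eval_minor hr (fun j => lab r M h B (e j))
      (cl r M h B (z, (finProdFinEquiv.symm y).2))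
    refine h3.trans ?_
    by_contra h4
    have h5 := Matrix.det_vandermonde_ne_zero_iff.1 h4
    have h6 : (fun b => lab r M h B (e (cl r M h B (z, (finProdFinEquiv.symm y).2) b))) 0 =
        (fun b => lab r M h B (e (cl r M h B (z, (finProdFinEquiv.symm y).2) b)))
          (finProdFinEquiv.symm y).1.succ := by
      simp only [cl, Fin.cons_zero, Fin.cons_succ]
      rw [hp, he1]
      simp only [lab, Sum.elim_inl, Sum.elim_inr]
      rw [Prod.mk.eta, Equiv.apply_symm_apply, hy]
    exact absurd (h5 h6) (Fin.succ_ne_zero _).symm

end Vale.Agent.P181.MR.H984
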